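import Vale.Agent.P038.H139.Steps

/-!
# Rewiring all rows of an optimal counterexample

`rows_eq`: the general rewiring principle. `rw_star`: 502's theorem (RW*). `prune`: 322's
pruning theorem (it contains 334's simulation lemma and 168's version).
-/

namespace Vale.Agent.P038.H668

open Finset Vale.Agent.P038.H139

variable {V : Type*} [Fintype V]

/-- The oriented graph with the rows `S z`. -/
def ofRows (S : V → Finset V) (h0 : ∀ z, z ∉ S z) (h1 : ∀ z y, y ∈ S z → z ∉ S y) :
    OGraph V where
  arc a b := b ∈ S a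
  loopless v h := h0 v h
  asymm u v h h' := h1 u v h h'

theorem N1_ofRows (S : V → Finset V) (h0 : ∀ z, z ∉ S z) (h1 : ∀ z y, y ∈ S z → z ∉ S y)
    (z : V) : N1 (ofRows S h0 h1) z = S z := by
  ext y
  rw [mem_N1]
  rfl

theorem Fw_ofRows [DecidableEq V] (lam : ℝ) (w : V → ℝ) (S : V → Finset V) (h0 : ∀ z, z ∉ S z)
    (h1 : ∀ z y, y ∈ S z → z ∉ S y) (z : V) :
    Fw lam (ofRows S h0 h1) w z = (1 + lam) * W w (S z) - W w (S z ∪ (S z).biUnion S) := by
  classical
  have e : S z ∪ (S z).biUnion S = N2 (ofRows S h0 h1) z ∪ S z := by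
    ext u
    rw [Finset.mem_union, Finset.mem_union, Finset.mem_biUnion, mem_N2]
    constructor
    · rintro (h | ⟨y, hy, hu⟩)
      · exact Or.inr h
      · by_cases hz : u ∈ S z
        · exact Or.inr hz
        · refine Or.inl ⟨?_, hz, y, hy, hu⟩
          rintro rfl
          exact h1 _ _ hy hu
    · rintro (⟨_, _, y, hy, hu⟩ | h)
      · exact Or.inr ⟨y, hy, hu⟩
      · exact Or.inl h
  have hd : Disjoint (N2 (ofRows S h0 h1) z) (S z) := by
    rw [Finset.disjoint_left]
    intro u hu hu'
    exact (mem_N2.1 hu).2.1 hu'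
  unfold Fw
  rw [e, W_union hd, N1_ofRows]
  ring

/-- The general rewiring principle. -/
theorem rows_eq [DecidableEq V] {lam : ℝ} {D : OGraph V} {w : V → ℝ} (h : Opt lam D w)
    (S : V → Finset V) (h0 : ∀ z, z ∉ S z) (h1 : ∀ z y, y ∈ S z → z ∉ S y)
    (hS : ∀ z, 1 ≤ (1 + lam) * W w (S z) - W w (S z ∪ (S z).biUnion S)) (z : V) :
    (1 + lam) * W w (S z) - W w (S z ∪ (S z).biUnion S) = 1 := by
  have h2 := h.opt (ofRows S h0 h1) (fun v => by rw [Fw_ofRows]; exact hS v) z
  rwa [Fw_ofRows] at h2

/-- `f(Y) = (1 + lam) w(Y) - w(N⁺[Y])`. -/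
noncomputable def ff (lam : ℝ) (D : OGraph V) (w : V → ℝ) (Y : Finset V) : ℝ :=
  (1 + lam) * W w Y - W w (cl D Y)

omit [Fintype V] in
theorem W_ui [DecidableEq V] (w : V → ℝ) (A B : Finset V) :
    W w (A ∪ B) + W w (A ∩ B) = W w A + W w B := by
  unfold W
  exact Finset.sum_union_inter

theorem ff_super [DecidableEq V] {lam : ℝ} {D : OGraph V} {w : V → ℝ} (hw : ∀ v, 0 ≤ w v)
    (A B : Finset V) : ff lam D w A + ff lam D w B ≤ ff lam D w (A ∪ B) + ff lam D w (A ∩ B) := by
  have h1 := W_ui w A B
  have h2 := W_ui w (cl D A) (cl D B)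
  have h3 : W w (cl D (A ∩ B)) ≤ W w (cl D A ∩ cl D B) :=
    W_mono hw (Finset.subset_inter (cl_mono Finset.inter_subset_left)
      (cl_mono Finset.inter_subset_right))
  have h4 : cl D (A ∪ B) = cl D A ∪ cl D B := cl_union
  unfold ff
  rw [h4]
  have h5 : (1 + lam) * W w (A ∪ B) + (1 + lam) * W w (A ∩ B) =
      (1 + lam) * W w A + (1 + lam) * W w B := by
    rw [← mul_add, h1, mul_add]
  linarith

/-- Subsets of a row. -/
theorem ff_sub {lam : ℝ} {D : OGraph V} {w : V → ℝ} (h : Opt lam D w) (v : V) (O : Finset V)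
    (hO : O ⊆ N1 D v) : ff lam D w O ≤ 1 :=
  step4 h v O fun _ hy => inR_of_arc (mem_N1.1 (hO hy))

theorem mem_cl_single {D : OGraph V} {z u : V} : u ∈ cl D {z} ↔ (u = z ∨ D.arc z u) := by
  rw [mem_cl]
  simp

theorem subset_cl {D : OGraph V} {S : Finset V} : S ⊆ cl D S := fun _ h => mem_cl.2 (Or.inl h)

/-- Subsets of the closed row. -/
theorem ff_sub_cl [DecidableEq V] {lam : ℝ} {D : OGraph V} {w : V → ℝ} (h : Opt lam D w) (v : V)
    (O : Finset V) (hO : O ⊆ cl D {v}) : ff lam D w O ≤ 1 + lam * w v := by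
  have hl := mul_nonneg h.lam_nonneg (h.nonneg v)
  by_cases hv : v ∈ O
  · have h1 : O.erase v ⊆ N1 D v := by
      intro u hu
      obtain ⟨h2, h3⟩ := Finset.mem_erase.1 hu
      rcases mem_cl_single.1 (hO h3) with h4 | h4
      · exact absurd h4 h2
      · exact mem_N1.2 h4
    have h2 := ff_sub h v _ h1
    have h3 : W w O = w v + W w (O.erase v) := by
      unfold W
      rw [Finset.add_sum_erase _ _ hv]
    have h4 : v ∉ cl D (O.erase v) := by
      intro h5
      rcases mem_cl.1 h5 with h6 | ⟨y, hy, hyv⟩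
      · exact Finset.notMem_erase _ _ h6
      · exact D.asymm _ _ (mem_N1.1 (h1 hy)) hyv
    have h5 : insert v (cl D (O.erase v)) ⊆ cl D O := by
      intro u hu
      rcases Finset.mem_insert.1 hu with rfl | hu
      · exact subset_cl hv
      · exact cl_mono (Finset.erase_subset _ _) hu
    have h6 := W_mono h.nonneg h5
    have h7 : W w (insert v (cl D (O.erase v))) = w v + W w (cl D (O.erase v)) := by
      unfold W
      rw [Finset.sum_insert h4]
    rw [h7] at h6
    unfold ff at h2 ⊢
    rw [h3]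
    have h8 : (1 + lam) * (w v + W w (O.erase v)) =
      w v + lam * w v + (1 + lam) * W w (O.erase v) := by ring
    linarith
  · have h1 : O ⊆ N1 D v := by
      intro u hu
      rcases mem_cl_single.1 (hO hu) with h4 | h4
      · exact absurd (h4 ▸ hu) hv
      · exact mem_N1.2 h4
    have h2 := ff_sub h v _ h1
    linarith

/-- The value of the closed row. -/
theorem ff_cl [DecidableEq V] {lam : ℝ} {D : OGraph V} {w : V → ℝ} (h : Opt lam D w) (v : V) :
    ff lam D w (cl D {v}) = 1 + lam * w v := by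
  have hv : v ∉ N1 D v := fun h1 => D.loopless v (mem_N1.1 h1)
  have h1 : cl D {v} = insert v (N1 D v) := by
    ext u
    rw [mem_cl_single, Finset.mem_insert, mem_N1]
  have hv2 : v ∉ cl D (N1 D v) := by
    intro h5
    rcases mem_cl.1 h5 with h6 | ⟨y, hy, hyv⟩
    · exact hv h6
    · exact D.asymm _ _ (mem_N1.1 hy) hyv
  have h2 : cl D (insert v (N1 D v)) = insert v (cl D (N1 D v)) := by
    ext u
    simp only [mem_cl, Finset.mem_insert]
    constructor
    · rintro ((h | h) | ⟨y, (rfl | hy), hyu⟩)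
      · exact Or.inl h
      · exact Or.inr (Or.inl h)
      · exact Or.inr (Or.inl (mem_N1.2 hyu))
      · exact Or.inr (Or.inr ⟨y, hy, hyu⟩)
    · rintro (h | h | ⟨y, hy, hyu⟩)
      · exact Or.inl (Or.inl h)
      · exact Or.inl (Or.inr h)
      · exact Or.inr ⟨y, Or.inr hy, hyu⟩
  have h3 := f_row h v
  unfold ff
  rw [h1, h2]
  unfold W at h3 ⊢
  rw [Finset.sum_insert hv, Finset.sum_insert hv2]
  linarith

/-- Adding a closed row does not decrease `f`. -/
theorem ff_union_cl [DecidableEq V] {lam : ℝ} {D : OGraph V} {w : V → ℝ} (h : Opt lam D w)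
    (S : Finset V) (v : V) : ff lam D w S ≤ ff lam D w (S ∪ cl D {v}) := by
  have h1 := ff_super (lam := lam) (D := D) h.nonneg S (cl D {v})
  have h2 := ff_sub_cl h v (S ∩ cl D {v}) Finset.inter_subset_right
  have h3 := ff_cl h v
  linarith

theorem ff_union_cls [DecidableEq V] {lam : ℝ} {D : OGraph V} {w : V → ℝ} (h : Opt lam D w)
    (S T : Finset V) : ff lam D w S ≤ ff lam D w (S ∪ cl D T) := by
  induction T using Finset.induction_on generalizing S with
  | empty =>
    have : cl D (∅ : Finset V) = ∅ := by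
      rw [Finset.eq_empty_iff_forall_notMem]
      intro z hz
      rw [mem_cl] at hz
      simp at hz
    rw [this, Finset.union_empty]
  | insert x T hx ih =>
    have h1 : cl D (insert x T) = cl D {x} ∪ cl D T := by
      rw [Finset.insert_eq, cl_union]
    rw [h1, ← Finset.union_assoc]
    exact (ff_union_cl h S x).trans (ih _)

/-- The value of `N⁺[T]` for a set `T` with two elements. -/
theorem ff_cl_two [DecidableEq V] {lam : ℝ} {D : OGraph V} {w : V → ℝ} (h : Opt lam D w)
    (T : Finset V) {z x : V} (hz : z ∈ T) (hx : x ∈ T) (hne : x ≠ z) :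
    1 + lam * w z + lam * w x ≤ ff lam D w (cl D T) := by
  have key : 1 + lam * w z + lam * w x ≤ ff lam D w (cl D {z} ∪ cl D {x}) := by
    have h1 := ff_super (lam := lam) (D := D) h.nonneg (cl D {z}) (cl D {x})
    have h2 := ff_cl h z
    have h3 := ff_cl h x
    have h4 : ff lam D w (cl D {z} ∩ cl D {x}) ≤ 1 := by
      by_cases hzx : D.arc z x
      · refine ff_sub h z _ ?_
        intro u hu
        obtain ⟨h5, h6⟩ := Finset.mem_inter.1 hu
        rcases mem_cl_single.1 h5 with h7 | h7
        · rw [h7] at h6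
          rcases mem_cl_single.1 h6 with h8 | h8
          · exact absurd h8.symm hne
          · exact absurd h8 (D.asymm _ _ hzx)
        · exact mem_N1.2 h7
      · refine ff_sub h x _ ?_
        intro u hu
        obtain ⟨h5, h6⟩ := Finset.mem_inter.1 hu
        rcases mem_cl_single.1 h6 with h7 | h7
        · rw [h7] at h5
          rcases mem_cl_single.1 h5 with h8 | h8
          · exact absurd h8 hne
          · exact absurd h8 hzx
        · exact mem_N1.2 h7
    linarith
  have h5 : cl D {z} ∪ cl D {x} ∪ cl D T = cl D T := by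
    rw [← cl_union, ← cl_union]
    congr 1
    ext u
    simp only [Finset.mem_union, Finset.mem_singleton]
    constructor
    · rintro ((rfl | rfl) | h)
      · exact hz
      · exact hx
      · exact h
    · exact Or.inr
  have h6 := ff_union_cls h (cl D {z} ∪ cl D {x}) T
  rw [h5] at h6
  exact key.trans h6

/-- The value of `N⁺[T]` for a nonempty set `T`. -/
theorem ff_cl_one [DecidableEq V] {lam : ℝ} {D : OGraph V} {w : V → ℝ} (h : Opt lam D w)
    (T : Finset V) {z : V} (hz : z ∈ T) : 1 + lam * w z ≤ ff lam D w (cl D T) := by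
  have h5 : cl D {z} ∪ cl D T = cl D T := by
    rw [← cl_union]
    congr 1
    ext u
    simp only [Finset.mem_union, Finset.mem_singleton]
    constructor
    · rintro (rfl | h)
      · exact hz
      · exact h
    · exact Or.inr
  have h6 := ff_union_cls h (cl D {z}) T
  rw [h5, ff_cl h z] at h6
  exact h6

/-- (RW*), general form: all rows `z` are replaced by `N⁺[L_z]`, the new two-ball of `z` may
leave `N⁺[N⁺[L_z]]` by a set of weight `e z`; only the inequality `rows` is needed. -/
theorem rw_gen [DecidableEq V] {lam : ℝ} {D : OGraph V} {w : V → ℝ} (h : Opt lam D w)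
    (L : V → Finset V) (hid : ∀ z, z ∈ L z)
    (hi : ∀ z y, y ∈ cl D (L z) → z ∈ cl D (L y) → y = z)
    (hii : ∀ z, W w ((cl D (L z)).biUnion (fun y => cl D (L y)) \ cl D (cl D (L z))) + 1 +
      lam * w z ≤ ff lam D w (cl D (L z))) (z : V) :
    ff lam D w (cl D (L z)) ≤ 1 + lam * w z +
      W w ((cl D (L z)).biUnion (fun y => cl D (L y)) \ cl D (cl D (L z))) := by
  set S : V → Finset V := fun z => (cl D (L z)).erase z with hS
  have h0 : ∀ z, z ∉ S z := fun z => Finset.notMem_erase _ _
  have h1 : ∀ z y, y ∈ S z → z ∉ S y := by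
    intro z y hy hz
    obtain ⟨h2, h3⟩ := Finset.mem_erase.1 hy
    exact h2 (hi z y h3 (Finset.mem_erase.1 hz).2)
  set E : V → Finset V := fun z =>
    (cl D (L z)).biUnion (fun y => cl D (L y)) \ cl D (cl D (L z)) with hE
  have hval : ∀ z, ff lam D w (cl D (L z)) - lam * w z - W w (E z) ≤
      (1 + lam) * W w (S z) - W w (S z ∪ (S z).biUnion S) := by
    intro z
    have hzP : z ∈ cl D (L z) := subset_cl (hid z)
    have hzB : z ∈ cl D (cl D (L z)) := subset_cl hzP
    have e1 : W w (cl D (L z)) = w z + W w (S z) := by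
      unfold W
      rw [hS, Finset.add_sum_erase _ _ hzP]
    have e2 : W w (cl D (cl D (L z))) = w z + W w ((cl D (cl D (L z))).erase z) := by
      unfold W
      rw [Finset.add_sum_erase _ _ hzB]
    have e3 : S z ∪ (S z).biUnion S ⊆ (cl D (cl D (L z))).erase z ∪ E z := by
      intro u hu
      rcases Finset.mem_union.1 hu with hu | hu
      · obtain ⟨h2, h3⟩ := Finset.mem_erase.1 hu
        exact Finset.mem_union_left _ (Finset.mem_erase.2 ⟨h2, subset_cl h3⟩)
      · obtain ⟨y, hy, hu2⟩ := Finset.mem_biUnion.1 hu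
        by_cases hB : u ∈ cl D (cl D (L z))
        · refine Finset.mem_union_left _ (Finset.mem_erase.2 ⟨fun huz => ?_, hB⟩)
          rw [huz] at hu2
          exact h1 _ _ hy hu2
        · exact Finset.mem_union_right _ (Finset.mem_sdiff.2
            ⟨Finset.mem_biUnion.2 ⟨y, (Finset.mem_erase.1 hy).2, (Finset.mem_erase.1 hu2).2⟩, hB⟩)
    have e4 := W_mono h.nonneg e3
    have e5 := W_ui w ((cl D (cl D (L z))).erase z) (E z)
    have e6 := W_nonneg h.nonneg ((cl D (cl D (L z))).erase z ∩ E z)
    unfold ff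
    rw [e1, e2]
    have e7 : (1 + lam) * (w z + W w (S z)) = w z + lam * w z + (1 + lam) * W w (S z) := by ring
    linarith
  have h2 : ∀ z, 1 ≤ (1 + lam) * W w (S z) - W w (S z ∪ (S z).biUnion S) := by
    intro z
    have h3 := hval z
    have h4 := hii z
    change W w (E z) + 1 + lam * w z ≤ _ at h4
    linarith
  have h3 := rows_eq h S h0 h1 h2 z
  have h4 := hval z
  change _ ≤ 1 + lam * w z + W w (E z)
  linarith

/-- 502's theorem (RW*). -/
theorem rw_star [DecidableEq V] {lam : ℝ} (hlam : 0 < lam) {D : OGraph V} {w : V → ℝ}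
    (h : Opt lam D w) (L : V → Finset V) (hid : ∀ z, z ∈ L z)
    (hi : ∀ z y, y ∈ cl D (L z) → z ∈ cl D (L y) → y = z)
    (hii : ∀ z y, y ∈ cl D (L z) → cl D (L y) ⊆ cl D (cl D (L z))) (z x : V) (hx : x ∈ L z) :
    x = z := by
  by_contra hne
  have hE : ∀ z, (cl D (L z)).biUnion (fun y => cl D (L y)) \ cl D (cl D (L z)) = ∅ := by
    intro z
    rw [Finset.sdiff_eq_empty_iff_subset, Finset.biUnion_subset]
    exact hii z
  have h0 : W w (∅ : Finset V) = 0 := by simp [W]
  have h1 := rw_gen h L hid hi (fun z => by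
    rw [hE z, h0]
    have := ff_cl_one h (L z) (hid z)
    linarith) z
  rw [hE z, h0] at h1
  have h2 := ff_cl_two h (L z) (hid z) hx hne
  have h3 := mul_pos hlam (h.pos x)
  linarith

/-- `dist(a, z) ≥ 3`. -/
def Far (D : OGraph V) (a z : V) : Prop :=
  a ≠ z ∧ ¬ D.arc a z ∧ ∀ c, D.arc a c → ¬ D.arc c z

/-- Simulation property of a relation. -/
def Sim (D : OGraph V) (L : V → V → Prop) : Prop :=
  ∀ r y a, D.arc r y → L y a → ∃ b, L r b ∧ (b = a ∨ D.arc b a)

/-- The transitive case of the pruning theorem. -/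
theorem prune_trans {lam : ℝ} (hlam : 0 < lam) {D : OGraph V} {w : V → ℝ} (h : Opt lam D w)
    (L : V → V → Prop) (hrefl : ∀ z, L z z) (htrans : ∀ a b c, L a b → L b c → L a c)
    (hanti : ∀ a b, L a b → L b a → a = b)
    (hfar : ∀ z a, L z a → a ≠ z → Far D a z) (hsim : Sim D L) (z a : V) (hza : L z a) :
    a = z := by
  classical
  set F : V → Finset V := fun z => Finset.univ.filter fun a => L z a with hF
  have mF : ∀ z a, a ∈ F z ↔ L z a := fun z a => by simp [hF]
  -- membership in `P_z`
  have mP : ∀ z y, y ∈ cl D (F z) ↔ ∃ a, L z a ∧ (a = y ∨ D.arc a y) := by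
    intro z y
    rw [mem_cl]
    constructor
    · rintro (h1 | ⟨a, ha, hay⟩)
      · exact ⟨y, (mF z y).1 h1, Or.inl rfl⟩
      · exact ⟨a, (mF z a).1 ha, Or.inr hay⟩
    · rintro ⟨a, ha, (rfl | hay)⟩
      · exact Or.inl ((mF z a).2 ha)
      · exact Or.inr ⟨a, (mF z a).2 ha, hay⟩
  refine rw_star hlam h F (fun z => (mF z z).2 (hrefl z)) ?_ ?_ z a ((mF z a).2 hza)
  · intro z y hy hz
    obtain ⟨a, ha, hay⟩ := (mP z y).1 hy
    obtain ⟨b, hb, hbz⟩ := (mP y z).1 hz
    rcases hay with rfl | hay
    · have hzb := htrans z a b ha hb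
      by_cases hne : b = z
      · subst hne
        exact hanti a b hb ha
      · have h1 := hfar z b hzb hne
        rcases hbz with h2 | h2
        · exact absurd h2 hne
        · exact absurd h2 h1.2.1
    · obtain ⟨c, hc, hcb⟩ := hsim a y b hay hb
      have hzc := htrans z a c ha hc
      by_cases hcz : c = z
      · subst hcz
        have h3 : a = c := hanti a c hc ha
        subst h3
        -- a → y, b ∈ L y, b = a or b → a
        rcases hbz with h2 | h2
        · subst h2
          have h4 := hfar y b hb (by rintro rfl; exact D.loopless _ hay)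
          exact absurd hay h4.2.1
        · rcases hcb with h5 | h5
          · subst h5
            exact absurd h2 (D.loopless _)
          · exact absurd h2 (D.asymm _ _ h5)
      · have h1 := hfar z c hzc hcz
        exfalso
        rcases hcb with rfl | h5
        · rcases hbz with h2 | h2
          · exact hcz h2
          · exact h1.2.1 h2
        · rcases hbz with h2 | h2
          · subst h2
            exact h1.2.1 h5
          · exact h1.2.2 b h5 h2
  · intro z y hy u hu
    obtain ⟨a, ha, hay⟩ := (mP z y).1 hy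
    obtain ⟨c, hc, hcu⟩ := (mP y u).1 hu
    have hc' : c ∈ cl D (F z) := by
      rcases hay with rfl | hay
      · exact (mP z c).2 ⟨c, htrans z a c ha hc, Or.inl rfl⟩
      · obtain ⟨b, hb, hbc⟩ := hsim a y c hay hc
        exact (mP z c).2 ⟨b, htrans z a b ha hb, hbc⟩
    rw [mem_cl]
    rcases hcu with rfl | hcu
    · exact Or.inl hc'
    · exact Or.inr ⟨c, hc', hcu⟩

/-- 322's pruning theorem: a simulation inside a reflexive, transitive, antisymmetric relation
consisting of far pairs is trivial. -/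
theorem prune {lam : ℝ} (hlam : 0 < lam) {D : OGraph V} {w : V → ℝ} (h : Opt lam D w)
    (Q : V → V → Prop) (hrefl : ∀ z, Q z z) (htrans : ∀ a b c, Q a b → Q b c → Q a c)
    (hanti : ∀ a b, Q a b → Q b a → a = b)
    (hfar : ∀ z a, Q z a → a ≠ z → Far D a z)
    (L : V → V → Prop) (hLQ : ∀ z a, L z a → Q z a) (hsim : Sim D L) (z a : V) (hza : L z a) :
    a = z := by
  set T : V → V → Prop := Relation.ReflTransGen L with hT
  have hTQ : ∀ z a, T z a → Q z a := by
    intro z a hta
    induction hta with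
    | refl => exact hrefl z
    | tail _ h2 ih => exact htrans _ _ _ ih (hLQ _ _ h2)
  have hTsim : Sim D T := by
    intro r y a hry hya
    induction hya with
    | refl => exact ⟨r, Relation.ReflTransGen.refl, Or.inr hry⟩
    | tail _ h2 ih =>
      obtain ⟨b, hb, hba⟩ := ih
      rcases hba with rfl | hba
      · exact ⟨_, hb.tail h2, Or.inl rfl⟩
      · obtain ⟨c, hc, hca⟩ := hsim b _ _ hba h2
        exact ⟨c, hb.tail hc, hca⟩
  exact prune_trans hlam h T (fun z => Relation.ReflTransGen.refl)
    (fun a b c h1 h2 => h1.trans h2) (fun a b h1 h2 => hanti a b (hTQ _ _ h1) (hTQ _ _ h2))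
    (fun z a h1 => hfar z a (hTQ _ _ h1)) hTsim z a (Relation.ReflTransGen.single hza)

end Vale.Agent.P038.H668
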