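import Vale.Agent.P038.H139.GStep

/-!
# The inequality (G) in an arc-minimal counterexample

294's deletion argument: in an arc-minimal counterexample every set `X` with nonempty outer
boundary has `w(N₂(X)) < w(N₁(X))`.
-/

namespace Vale.Agent.P038.H668

open Finset Vale.Agent.P038.H139

variable {V : Type*} [Fintype V]

/-- An arc-minimal counterexample for the weights `w`. -/
structure Crit (D : OGraph V) (w : V → ℝ) : Prop where
  pos : ∀ v, 0 < w v
  ce : ∀ v, 0 < Fw 1 D w v
  min : ∀ D' : OGraph V, (∀ a b, D'.arc a b → D.arc a b) → (∀ v, 0 < Fw 1 D' w v) →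
    ∀ a b, D.arc a b → D'.arc a b

theorem Crit.nonneg {D : OGraph V} {w : V → ℝ} (h : Crit D w) (v : V) : 0 ≤ w v := (h.pos v).le

/-- (G) for every set `X` with nonempty outer boundary. -/
theorem critG [DecidableEq V] {D : OGraph V} {w : V → ℝ} (h : Crit D w)
    (X : Finset V) (hne : (outS D X \ X).Nonempty) :
    W w (outS D (outS D X \ X) \ (X ∪ (outS D X \ X))) < W w (outS D X \ X) := by
  classical
  set L := outS D X \ X with hL
  set d : Finset V → ℝ := fun T => W w (cl D T \ X) - 2 * W w T with hd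
  have hLX : Disjoint L X := Finset.sdiff_disjoint
  have hdL : d L = W w (outS D L \ (X ∪ L)) - W w L := by
    have e1 : cl D L \ X = (outS D L \ (X ∪ L)) ∪ L := by
      ext z
      simp only [Finset.mem_sdiff, Finset.mem_union, mem_cl, mem_outS]
      constructor
      · rintro ⟨h1 | h1, h2⟩
        · exact Or.inr h1
        · by_cases hz : z ∈ L
          · exact Or.inr hz
          · exact Or.inl ⟨h1, fun h3 => h3.elim h2 hz⟩
      · rintro (⟨h1, h2⟩ | h1)
        · exact ⟨Or.inr h1, fun h3 => h2 (Or.inl h3)⟩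
        · exact ⟨Or.inl h1, fun h3 => Finset.disjoint_left.1 hLX h1 h3⟩
    have e2 : Disjoint (outS D L \ (X ∪ L)) L := by
      rw [Finset.disjoint_left]
      intro z hz hz'
      exact (Finset.mem_sdiff.1 hz).2 (Finset.mem_union_right _ hz')
    simp only [hd]
    rw [e1, W_union e2]
    ring
  by_contra hcon
  push Not at hcon
  have hdLpos : 0 ≤ d L := by rw [hdL]; linarith
  have hd0 : d ∅ = 0 := by
    have : cl D (∅ : Finset V) = ∅ := by
      rw [Finset.eq_empty_iff_forall_notMem]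
      intro z hz
      rw [mem_cl] at hz
      simp at hz
    simp [hd, this, W]
  obtain ⟨T, hT, hTmin⟩ := Finset.exists_min_image (L.powerset.filter fun T => T ≠ L) d
    ⟨∅, Finset.mem_filter.2 ⟨Finset.empty_mem_powerset _, (Finset.nonempty_iff_ne_empty.1 hne).symm⟩⟩
  obtain ⟨hTL, hTne⟩ := Finset.mem_filter.1 hT
  rw [Finset.mem_powerset] at hTL
  have hmin : ∀ S ⊆ L, d T ≤ d S := by
    intro S hS
    by_cases hSL : S = L
    · have h1 := hTmin ∅ (Finset.mem_filter.2 ⟨Finset.empty_mem_powerset _,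
        (Finset.nonempty_iff_ne_empty.1 hne).symm⟩)
      rw [hSL]
      linarith
    · exact hTmin S (Finset.mem_filter.2 ⟨Finset.mem_powerset.2 hS, hSL⟩)
  set Z := L \ T with hZ
  set D' := del D X Z with hD'
  have key : ∀ y ∈ X, Fw 1 D w y + (W w ((cl D (N1 D y ∩ Z)) \ (cl D T ∪ X))
      - 2 * W w (N1 D y ∩ Z)) ≤ Fw 1 D' w y := by
    intro y hy
    set Dy := N1 D y ∩ Z with hDy
    set Ey := cl D Dy \ (cl D T ∪ X) with hEy
    have hN1 : N1 D' y = N1 D y \ Dy := by
      ext z
      rw [mem_N1, Finset.mem_sdiff, hDy, Finset.mem_inter, mem_N1]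
      constructor
      · rintro ⟨h1, h2⟩
        exact ⟨h1, fun h3 => h2 ⟨hy, h3.2⟩⟩
      · rintro ⟨h1, h2⟩
        exact ⟨h1, fun h3 => h2 ⟨h1, h3.2⟩⟩
    have hEsub : Ey ⊆ N2 D y ∪ Dy := by
      intro z hz
      obtain ⟨hz1, hz2⟩ := Finset.mem_sdiff.1 hz
      have hzX : z ∉ X := fun h3 => hz2 (Finset.mem_union_right _ h3)
      have hzT : z ∉ cl D T := fun h3 => hz2 (Finset.mem_union_left _ h3)
      rw [mem_cl] at hz1
      rcases hz1 with hz1 | ⟨c, hc, hcz⟩
      · exact Finset.mem_union_right _ hz1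
      · have hyc : D.arc y c := mem_N1.1 (Finset.mem_inter.1 hc).1
        by_cases hyz : D.arc y z
        · refine Finset.mem_union_right _ (Finset.mem_inter.2 ⟨mem_N1.2 hyz, ?_⟩)
          refine Finset.mem_sdiff.2 ⟨?_, ?_⟩
          · rw [hL]
            exact Finset.mem_sdiff.2 ⟨mem_outS.2 ⟨y, hy, hyz⟩, hzX⟩
          · intro h3
            exact hzT (mem_cl.2 (Or.inl h3))
        · refine Finset.mem_union_left _ (mem_N2.2 ⟨?_, hyz, c, hyc, hcz⟩)
          rintro rfl
          exact hzX hy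
    have hN2 : N2 D' y ⊆ (N2 D y ∪ Dy) \ Ey := by
      intro z hz
      rw [mem_N2] at hz
      obtain ⟨hzy, hnz, c, hyc, hcz⟩ := hz
      refine Finset.mem_sdiff.2 ⟨?_, ?_⟩
      · by_cases hyz : D.arc y z
        · refine Finset.mem_union_right _ (Finset.mem_inter.2 ⟨mem_N1.2 hyz, ?_⟩)
          by_contra hzZ
          exact hnz ⟨hyz, fun h3 => hzZ h3.2⟩
        · exact Finset.mem_union_left _ (mem_N2.2 ⟨hzy, hyz, c, hyc.1, hcz.1⟩)
      · intro hzE
        obtain ⟨_, hz2⟩ := Finset.mem_sdiff.1 hzE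
        have hzX : z ∉ X := fun h3 => hz2 (Finset.mem_union_right _ h3)
        have hzT : z ∉ cl D T := fun h3 => hz2 (Finset.mem_union_left _ h3)
        by_cases hcX : c ∈ X
        · have hzL : z ∈ L := by
            rw [hL]
            exact Finset.mem_sdiff.2 ⟨mem_outS.2 ⟨c, hcX, hcz.1⟩, hzX⟩
          have hzZ : z ∈ Z := Finset.mem_sdiff.2 ⟨hzL, fun h3 => hzT (mem_cl.2 (Or.inl h3))⟩
          exact hcz.2 ⟨hcX, hzZ⟩
        · have hcL : c ∈ L := by
            rw [hL]
            exact Finset.mem_sdiff.2 ⟨mem_outS.2 ⟨y, hy, hyc.1⟩, hcX⟩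
          have hcT : c ∈ T := by
            by_contra hcT
            exact hyc.2 ⟨hy, Finset.mem_sdiff.2 ⟨hcL, hcT⟩⟩
          exact hzT (mem_cl.2 (Or.inr ⟨c, hcT, hcz.1⟩))
    have h1 := W_mono h.nonneg hN2
    rw [W_sdiff hEsub, W_union (by
      rw [Finset.disjoint_left]
      intro z hz hz'
      exact (mem_N2.1 hz).2.1 (mem_N1.1 (Finset.mem_inter.1 hz').1))] at h1
    have h2 : W w (N1 D' y) = W w (N1 D y) - W w Dy := by
      rw [hN1, W_sdiff Finset.inter_subset_left]
    unfold Fw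
    rw [h2]
    linarith
  have hE : ∀ y, 2 * W w (N1 D y ∩ Z) ≤
      W w ((cl D (N1 D y ∩ Z)) \ (cl D T ∪ X)) := by
    intro y
    set Dy := N1 D y ∩ Z with hDy
    have hDyL : Dy ⊆ L := Finset.inter_subset_right.trans Finset.sdiff_subset
    have hDT : Disjoint T Dy := by
      rw [Finset.disjoint_left]
      intro z hz hz'
      exact (Finset.mem_sdiff.1 (Finset.mem_inter.1 hz').2).2 hz
    have h1 := hmin (T ∪ Dy) (Finset.union_subset hTL hDyL)
    have e1 : cl D (T ∪ Dy) \ X = (cl D T \ X) ∪ (cl D Dy \ (cl D T ∪ X)) := by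
      rw [cl_union]
      ext z
      simp only [Finset.mem_sdiff, Finset.mem_union]
      tauto
    have e2 : Disjoint (cl D T \ X) (cl D Dy \ (cl D T ∪ X)) := by
      rw [Finset.disjoint_left]
      intro z hz hz'
      exact (Finset.mem_sdiff.1 hz').2 (Finset.mem_union_left _ (Finset.mem_sdiff.1 hz).1)
    simp only [hd] at h1
    rw [e1, W_union e2, W_union hDT] at h1
    linarith
  have hall : ∀ v, 0 < Fw 1 D' w v := by
    intro v
    by_cases hv : v ∈ X
    · have h1 := key v hv
      have h2 := hE v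
      have h3 := h.ce v
      linarith
    · have h1 : N1 D' v = N1 D v := by
        ext z
        rw [mem_N1, mem_N1]
        exact ⟨fun h3 => h3.1, fun h3 => ⟨h3, fun h4 => hv h4.1⟩⟩
      have h2 : N2 D' v ⊆ N2 D v := by
        intro z hz
        rw [mem_N2] at hz ⊢
        obtain ⟨hzv, hnz, c, hvc, hcz⟩ := hz
        exact ⟨hzv, fun h3 => hnz ⟨h3, fun h4 => hv h4.1⟩, c, hvc.1, hcz.1⟩
      have h3 := W_mono h.nonneg h2
      have h4 := h.ce v
      unfold Fw at h4 ⊢
      rw [h1]
      linarith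
  have hZne : Z.Nonempty := by
    rw [Finset.nonempty_iff_ne_empty]
    intro hZe
    apply hTne
    apply Finset.Subset.antisymm hTL
    rw [hZ, Finset.sdiff_eq_empty_iff_subset] at hZe
    exact hZe
  obtain ⟨z, hz⟩ := hZne
  have hzL : z ∈ L := (Finset.mem_sdiff.1 hz).1
  rw [hL] at hzL
  obtain ⟨y, hy, hyz⟩ := mem_outS.1 (Finset.mem_sdiff.1 hzL).1
  have h1 : D'.arc y z := h.min D' (fun a b hab => hab.1) hall y z hyz
  exact h1.2 ⟨hy, hz⟩

/-- The cost of a set: `c(X) = w(N⁺[X]) - w(X)`. -/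
noncomputable def cc (D : OGraph V) (w : V → ℝ) (X : Finset V) : ℝ := W w (cl D X) - W w X

theorem cl_eq [DecidableEq V] (D : OGraph V) (X : Finset V) : cl D X = X ∪ (outS D X \ X) := by
  ext z
  simp only [mem_cl, Finset.mem_union, Finset.mem_sdiff, mem_outS]
  constructor
  · rintro (h | h)
    · exact Or.inl h
    · by_cases hz : z ∈ X
      · exact Or.inl hz
      · exact Or.inr ⟨h, hz⟩
  · rintro (h | h)
    · exact Or.inl h
    · exact Or.inr h.1

theorem clcl_eq [DecidableEq V] (D : OGraph V) (X : Finset V) :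
    cl D (cl D X) = cl D X ∪ (outS D (outS D X \ X) \ (X ∪ (outS D X \ X))) := by
  ext z
  by_cases hz : z ∈ cl D X
  · constructor
    · intro _
      exact Finset.mem_union_left _ hz
    · intro _
      exact mem_cl.2 (Or.inl hz)
  · have hz' : z ∉ X ∪ (outS D X \ X) := by rwa [← cl_eq]
    constructor
    · intro h
      rcases mem_cl.1 h with h1 | ⟨y, hy, hyz⟩
      · exact absurd h1 hz
      · refine Finset.mem_union_right _ (Finset.mem_sdiff.2 ⟨mem_outS.2 ⟨y, ?_, hyz⟩, hz'⟩)
        have hyX : y ∉ X := fun hyX => hz (mem_cl.2 (Or.inr ⟨y, hyX, hyz⟩))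
        rcases mem_cl.1 hy with h2 | h2
        · exact absurd h2 hyX
        · exact Finset.mem_sdiff.2 ⟨mem_outS.2 h2, hyX⟩
    · intro h
      rcases Finset.mem_union.1 h with h1 | h1
      · exact absurd h1 hz
      · obtain ⟨y, hy, hyz⟩ := mem_outS.1 (Finset.mem_sdiff.1 h1).1
        refine mem_cl.2 (Or.inr ⟨y, ?_, hyz⟩)
        rw [cl_eq]
        exact Finset.mem_union_right _ hy

/-- (G) in the form `c(N⁺[X]) < c(X)`. -/
theorem cc_lt [DecidableEq V] {D : OGraph V} {w : V → ℝ} (h : Crit D w)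
    (X : Finset V) (hne : (outS D X \ X).Nonempty) : cc D w (cl D X) < cc D w X := by
  have h1 := critG h X hne
  unfold cc
  rw [clcl_eq, W_union (by
    rw [Finset.disjoint_left]
    intro z hz hz'
    rw [cl_eq] at hz
    exact (Finset.mem_sdiff.1 hz').2 hz), cl_eq, W_union Finset.disjoint_sdiff]
  linarith

theorem cc_le [DecidableEq V] {D : OGraph V} {w : V → ℝ} (h : Crit D w)
    (X : Finset V) : cc D w (cl D X) ≤ cc D w X := by
  by_cases hne : (outS D X \ X).Nonempty
  · exact (cc_lt h X hne).le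
  · rw [Finset.not_nonempty_iff_eq_empty] at hne
    have h1 : cl D X = X := by rw [cl_eq, hne, Finset.union_empty]
    rw [h1]

end Vale.Agent.P038.H668
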