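import Vale.Agent.P038.H668.SncS

/-!
# Seymour's second neighbourhood conjecture
-/

namespace Vale.Agent.P038.H668

open Finset Vale.Agent.P038.H139

variable {V : Type*} [Fintype V]

theorem mu_eq [DecidableEq V] (w : V → ℝ) (P : V → Finset V) :
    mu w P = ∑ b, ∑ u, if u ∈ P b then w b * w u else 0 := by
  unfold mu W
  refine Finset.sum_congr rfl fun b _ => ?_
  rw [Finset.mul_sum, ← Finset.sum_filter]
  refine Finset.sum_congr ?_ fun _ _ => rfl
  ext x
  simp

/-- The constant `w(V)² + Σ w²`. -/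
noncomputable def KK [DecidableEq V] (w : V → ℝ) : ℝ :=
  ∑ b, ∑ u, (w b * w u + if u = b then w b * w u else 0)

theorem mu_eq' [DecidableEq V] (w : V → ℝ) (Q : V → Finset V) :
    mu w Q = ∑ b, ∑ u, if b ∈ Q u then w b * w u else 0 := by
  rw [mu_eq, Finset.sum_comm]
  refine Finset.sum_congr rfl fun b _ => Finset.sum_congr rfl fun u _ => ?_
  split_ifs
  · ring
  · rfl

theorem pair_sum [DecidableEq V] {w : V → ℝ} {P Q : V → Finset V} (hP : ∀ b, b ∈ P b)
    (hQ : ∀ b, b ∈ Q b) (h : ∀ u b, u ≠ b → (u ∈ P b ↔ b ∉ Q u)) :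
    mu w P + mu w Q = KK w := by
  rw [mu_eq w P, mu_eq' w Q]
  unfold KK
  rw [← Finset.sum_add_distrib]
  refine Finset.sum_congr rfl fun b _ => ?_
  rw [← Finset.sum_add_distrib]
  refine Finset.sum_congr rfl fun u _ => ?_
  by_cases hub : u = b
  · subst hub
    simp [hP u, hQ u]
  · have h1 := h u b hub
    by_cases h2 : u ∈ P b
    · simp [h2, h1.1 h2, hub]
    · have h3 : b ∈ Q u := by
        by_contra h3
        exact h2 (h1.2 h3)
      simp [h2, h3, hub]

theorem pair_sum_le [DecidableEq V] {w : V → ℝ} (hw : ∀ v, 0 ≤ w v) {P Q : V → Finset V}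
    (h : ∀ u b, u ≠ b → u ∈ P b → b ∉ Q u) : mu w P + mu w Q ≤ KK w := by
  rw [mu_eq w P, mu_eq' w Q]
  unfold KK
  rw [← Finset.sum_add_distrib]
  refine Finset.sum_le_sum fun b _ => ?_
  rw [← Finset.sum_add_distrib]
  refine Finset.sum_le_sum fun u _ => ?_
  have h0 := mul_nonneg (hw b) (hw u)
  by_cases hub : u = b
  · subst hub
    rw [if_pos (rfl : u = u)]
    split_ifs <;> linarith
  · by_cases h2 : u ∈ P b
    · simp [h2, h u b hub h2, hub]
    · simp only [h2, hub, if_false, zero_add, add_zero]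
      split_ifs
      · exact le_rfl
      · exact h0

/-- Compatible pairs of families. -/
structure Pair (D : OGraph V) (X Y : V → Finset V) : Prop where
  hX : ∀ a u, Nr D a u → u ∈ X a
  hY : ∀ a u, Nr D a u → u ∈ Y a
  compat : ∀ a b, a ≠ b → b ∈ X a → a ∉ Y b

omit [Fintype V] in
theorem ne_of_arc {D : OGraph V} {a b : V} (h : D.arc a b) : a ≠ b := by
  rintro rfl
  exact D.loopless _ h

/-- The shift of a pair is a pair. -/
theorem Pair.shift {D : OGraph V} {X Y : V → Finset V} (h : Pair D X Y) :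
    Pair D (fun z => cl D (er D X z)) (fun z => cl D (er D Y z)) where
  hX a u hau := mem_cl'.2 ⟨a, hau, mem_er.2 fun a' ha' => h.hX a' a ha'⟩
  hY a u hau := mem_cl'.2 ⟨a, hau, mem_er.2 fun a' ha' => h.hY a' a ha'⟩
  compat a b hab hb ha := by
    obtain ⟨x, hxb, hx⟩ := mem_cl'.1 hb
    obtain ⟨y, hya, hy⟩ := mem_cl'.1 ha
    have h1 : x ∈ X y := er_sub hya hx
    have h2 : y ∈ Y x := er_sub hxb hy
    by_cases hyx : y = x
    · subst hyx
      rcases hya with rfl | hya
      · -- y = a
        rcases hxb with h3 | h3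
        · exact hab h3
        · exact h.compat y b hab (h.hX y b (Or.inr h3)) (er_sub (Or.inl rfl) hy)
      · exact h.compat a y (ne_of_arc hya).symm (er_sub (Or.inl rfl) hx) (h.hY y a (Or.inr hya))
    · exact h.compat y x hyx h1 h2

open Classical in
/-- The largest family compatible with `Y`. -/
noncomputable def Sf (Y : V → Finset V) (a : V) : Finset V :=
  Finset.univ.filter fun u => u = a ∨ a ∉ Y u

theorem mem_Sf {Y : V → Finset V} {a u : V} : u ∈ Sf Y a ↔ (u = a ∨ a ∉ Y u) := by
  classical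
  simp [Sf]

theorem Cs_one (D : OGraph V) (w : V → ℝ) (X : V → Finset V) :
    Cs D w 1 X = mu w (fun a => cl D (X a)) - mu w X := by
  unfold Cs mu cs
  rw [← Finset.sum_sub_distrib]
  refine Finset.sum_congr rfl fun a _ => ?_
  ring

/-- A cheapest pair. -/
structure MinPair (D : OGraph V) (w : V → ℝ) (X Y : V → Finset V) : Prop where
  pair : Pair D X Y
  min : ∀ X' Y', Pair D X' Y' → Cs D w 1 X + Cs D w 1 Y ≤ Cs D w 1 X' + Cs D w 1 Y'

theorem exists_minPair (D : OGraph V) (w : V → ℝ) : ∃ X Y, MinPair D w X Y := by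
  classical
  have h0 : Pair D (fun a => cl D {a}) (fun a => cl D {a}) :=
    { hX := fun a u hau => mem_cl'.2 ⟨a, hau, Finset.mem_singleton_self a⟩
      hY := fun a u hau => mem_cl'.2 ⟨a, hau, Finset.mem_singleton_self a⟩
      compat := by
        intro a b hab hb ha
        obtain ⟨x, hxb, hx⟩ := mem_cl'.1 hb
        obtain ⟨y, hya, hy⟩ := mem_cl'.1 ha
        rw [Finset.mem_singleton] at hx hy
        subst hx hy
        rcases hxb with h1 | h1
        · exact hab h1
        · rcases hya with h2 | h2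
          · exact hab h2.symm
          · exact D.asymm _ _ h1 h2 }
  obtain ⟨⟨X, Y⟩, h1, h2⟩ := Set.exists_min_image
    {p : (V → Finset V) × (V → Finset V) | Pair D p.1 p.2}
    (fun p => Cs D w 1 p.1 + Cs D w 1 p.2) (Set.toFinite _) ⟨(_, _), h0⟩
  exact ⟨X, Y, h1, fun X' Y' h' => h2 (X', Y') h'⟩

theorem Cs_update [DecidableEq V] (D : OGraph V) (w : V → ℝ) (X : V → Finset V) (a : V)
    (U : Finset V) :
    Cs D w 1 (Function.update X a U) = Cs D w 1 X + w a * (cs D w 1 U - cs D w 1 (X a)) := by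
  unfold Cs
  rw [← Finset.add_sum_erase _ _ (Finset.mem_univ a),
    ← Finset.add_sum_erase (Finset.univ) (fun b => w b * cs D w 1 (X b)) (Finset.mem_univ a),
    Function.update_self]
  have : ∑ x ∈ Finset.univ.erase a, w x * cs D w 1 (Function.update X a U x) =
      ∑ x ∈ Finset.univ.erase a, w x * cs D w 1 (X x) := by
    refine Finset.sum_congr rfl fun x hx => ?_
    rw [Function.update_of_ne (Finset.ne_of_mem_erase hx)]
  rw [this]
  ring

theorem MinPair.row {D : OGraph V} {w : V → ℝ} (hw : ∀ v, 0 < w v) {X Y : V → Finset V}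
    (h : MinPair D w X Y) (a : V) (U : Finset V) (h1 : X a ⊆ U) (h2 : U ⊆ Sf Y a) :
    cs D w 1 (X a) ≤ cs D w 1 U := by
  classical
  have h3 : Pair D (Function.update X a U) Y :=
    { hX := by
        intro b u hbu
        by_cases hb : b = a
        · subst hb
          rw [Function.update_self]
          exact h1 (h.pair.hX b u hbu)
        · rw [Function.update_of_ne hb]
          exact h.pair.hX b u hbu
      hY := h.pair.hY
      compat := by
        intro b c hbc hc
        by_cases hb : b = a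
        · subst hb
          rw [Function.update_self] at hc
          rcases mem_Sf.1 (h2 hc) with h4 | h4
          · exact absurd h4.symm hbc
          · exact h4
        · rw [Function.update_of_ne hb] at hc
          exact h.pair.compat b c hbc hc }
  have h4 := h.min _ _ h3
  rw [Cs_update] at h4
  have h5 : 0 ≤ w a * (cs D w 1 U - cs D w 1 (X a)) := by linarith
  have h6 := nonneg_of_mul_nonneg_right h5 (hw a)
  linarith

theorem MinPair.col {D : OGraph V} {w : V → ℝ} (hw : ∀ v, 0 < w v) {X Y : V → Finset V}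
    (h : MinPair D w X Y) (x : V) (U : Finset V) (h1 : Y x ⊆ U)
    (h2 : ∀ a ∈ U, a ≠ x → x ∉ X a) :
    cs D w 1 (Y x) ≤ cs D w 1 U := by
  classical
  have h3 : Pair D X (Function.update Y x U) :=
    { hX := h.pair.hX
      hY := by
        intro b u hbu
        by_cases hb : b = x
        · subst hb
          rw [Function.update_self]
          exact h1 (h.pair.hY b u hbu)
        · rw [Function.update_of_ne hb]
          exact h.pair.hY b u hbu
      compat := by
        intro b c hbc hc hb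
        by_cases hcx : c = x
        · subst hcx
          rw [Function.update_self] at hb
          exact h2 b hb hbc hc
        · rw [Function.update_of_ne hcx] at hb
          exact h.pair.compat b c hbc hc hb }
  have h4 := h.min _ _ h3
  rw [Cs_update] at h4
  have h5 : 0 ≤ w x * (cs D w 1 U - cs D w 1 (Y x)) := by linarith
  have h6 := nonneg_of_mul_nonneg_right h5 (hw x)
  linarith

/-- The column inequality for a cheapest pair. -/
theorem MinPair.hcol [DecidableEq V] {D : OGraph V} {w : V → ℝ} (hw : ∀ v, 0 < w v)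
    {X Y : V → Finset V} (h : MinPair D w X Y) (x : V) (Z : Finset V)
    (hZ : ∀ a ∈ Z, x ∈ Sf Y a ∧ x ∉ X a) :
    W w Z ≤ W w ((cl D Z).filter fun z => x ∈ er D (Sf Y) z) := by
  have hw0 : ∀ v, 0 ≤ w v := fun v => (hw v).le
  have hd : Disjoint (Y x) Z := by
    rw [Finset.disjoint_left]
    intro a ha ha'
    obtain ⟨h1, h2⟩ := hZ a ha'
    rcases mem_Sf.1 h1 with h3 | h3
    · rw [h3] at h2
      exact h2 (h.pair.hX a a (Or.inl rfl))
    · exact h3 ha
  have h1 := h.col hw x (Y x ∪ Z) Finset.subset_union_left (by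
    intro a ha hax
    rcases Finset.mem_union.1 ha with h2 | h2
    · exact fun h3 => h.pair.compat a x hax h3 h2
    · exact (hZ a h2).2)
  have e1 : cl D (Y x ∪ Z) = cl D (Y x) ∪ (cl D Z \ cl D (Y x)) := by
    rw [cl_union, Finset.union_sdiff_self_eq_union]
  unfold cs at h1
  rw [e1, W_union Finset.disjoint_sdiff, W_union hd] at h1
  have h2 : W w Z ≤ W w (cl D Z \ cl D (Y x)) := by linarith
  refine h2.trans (W_mono hw0 ?_)
  intro z hz
  obtain ⟨h3, h4⟩ := Finset.mem_sdiff.1 hz
  refine Finset.mem_filter.2 ⟨h3, mem_er.2 fun a ha => mem_Sf.2 (Or.inr fun h5 => ?_)⟩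
  exact h4 (mem_cl'.2 ⟨a, ha, h5⟩)

theorem Pair.sub_Sf {D : OGraph V} {X Y : V → Finset V} (h : Pair D X Y) (a : V) :
    X a ⊆ Sf Y a := by
  intro u hu
  rw [mem_Sf]
  by_cases hua : u = a
  · exact Or.inl hua
  · exact Or.inr (h.compat a u (fun e => hua e.symm) hu)

/-- Lemma S: the erosion of a cheapest pair is not more expensive. -/
theorem MinPair.lemmaS {D : OGraph V} {w : V → ℝ} (hw : ∀ v, 0 < w v) {X Y : V → Finset V}
    (h : MinPair D w X Y) :
    Cs D w 1 (er D X) + Cs D w 1 (er D Y) ≤ Cs D w 1 X + Cs D w 1 Y := by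
  classical
  have hw0 : ∀ v, 0 ≤ w v := fun v => (hw v).le
  have hp := h.pair
  set S := Sf Y with hS
  -- the claim at s = 1
  have hcl := claim hw (X := X) (S := S) (fun x Z hZ => h.hcol hw x Z hZ) _ 1 X rfl
    (fun a => Finset.Subset.refl _) (fun a => hp.sub_Sf a) (fun a U h1 h2 => h.row hw a U h1 h2)
  -- counting
  have e1 : mu w Y + mu w S = KK w := pair_sum (fun b => hp.hY b b (Or.inl rfl))
    (fun b => mem_Sf.2 (Or.inl rfl)) (by
      intro u b hub
      rw [hS, mem_Sf]
      push Not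
      exact ⟨fun h1 => ⟨fun e => hub e.symm, h1⟩, fun h1 => h1.2⟩)
  have e2 : mu w (fun b => cl D (Y b)) + mu w (er D S) = KK w := pair_sum
    (fun b => mem_cl'.2 ⟨b, Or.inl rfl, hp.hY b b (Or.inl rfl)⟩)
    (fun b => mem_er.2 fun a ha => hp.sub_Sf a (hp.hX a b ha)) (by
      intro u b hub
      constructor
      · intro h1 h2
        obtain ⟨a, hau, haY⟩ := mem_cl'.1 h1
        rcases mem_Sf.1 (mem_er.1 h2 a hau) with h3 | h3
        · subst h3
          have h4 := hp.hY b u hau
          rcases mem_Sf.1 (mem_er.1 h2 u (Or.inl rfl)) with h5 | h5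
          · exact hub h5.symm
          · exact h5 h4
        · exact h3 haY
      · intro h1
        rw [mem_er] at h1
        push Not at h1
        obtain ⟨a, hau, haS⟩ := h1
        rw [hS, mem_Sf] at haS
        push Not at haS
        exact mem_cl'.2 ⟨a, hau, haS.2⟩)
  have e3 : mu w (er D Y) + mu w (fun b => cl D (S b)) = KK w := pair_sum
    (fun b => mem_er.2 fun a ha => hp.hY a b ha)
    (fun b => mem_cl'.2 ⟨b, Or.inl rfl, mem_Sf.2 (Or.inl rfl)⟩) (by
      intro u b hub
      constructor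
      · intro h1 h2
        obtain ⟨b', hb', hb'S⟩ := mem_cl'.1 h2
        have h3 := mem_er.1 h1 b' hb'
        rcases mem_Sf.1 hb'S with h4 | h4
        · subst h4
          exact hp.compat b' b hub (hp.hX b' b hb') (mem_er.1 h1 b (Or.inl rfl))
        · exact h4 h3
      · intro h1
        refine mem_er.2 fun b' hb' => ?_
        by_contra h2
        exact h1 (mem_cl'.2 ⟨b', hb', mem_Sf.2 (Or.inr h2)⟩))
  have e4 : mu w (fun b => cl D (er D Y b)) + mu w (fun b => cl D (er D S b)) ≤ KK w :=
    pair_sum_le hw0 (by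
      intro u b hub h1 h2
      obtain ⟨a, hau, haY⟩ := mem_cl'.1 h1
      obtain ⟨x, hxb, hxS⟩ := mem_cl'.1 h2
      rcases mem_Sf.1 (mem_er.1 hxS a hau) with h3 | h3
      · subst h3
        rcases hau with rfl | hau
        · exact hp.compat x b hub (hp.hX x b hxb) (mem_er.1 haY b (Or.inl rfl))
        · rcases mem_Sf.1 (mem_er.1 hxS u (Or.inl rfl)) with h5 | h5
          · exact ne_of_arc hau h5
          · exact h5 (hp.hY x u (Or.inr hau))
      · exact h3 (mem_er.1 haY x hxb))
  rw [Cs_one, Cs_one, Cs_one, Cs_one] at hcl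
  rw [Cs_one, Cs_one, Cs_one, Cs_one]
  linarith

/-- Some row of the eroded family has a nonempty outer boundary. -/
theorem Pair.exists_bd [DecidableEq V] [Nonempty V] {D : OGraph V} {w : V → ℝ} (hc : Crit D w)
    {X Y : V → Finset V} (h : Pair D X Y) : ∃ z, (outS D (er D X z) \ er D X z).Nonempty := by
  classical
  by_contra hcon
  push Not at hcon
  -- every eroded row is out-closed
  have hcl : ∀ z u v, u ∈ er D X z → D.arc u v → v ∈ er D X z := by
    intro z u v hu huv
    by_contra hv
    have h1 : v ∈ outS D (er D X z) \ er D X z :=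
      Finset.mem_sdiff.2 ⟨mem_outS.2 ⟨u, hu, huv⟩, hv⟩
    rw [hcon z] at h1
    simp at h1
  -- a smallest out-closed set
  obtain ⟨C, hC, hCmin⟩ := Finset.exists_min_image
    (Finset.univ.filter fun C : Finset V => C.Nonempty ∧ ∀ u v, u ∈ C → D.arc u v → v ∈ C)
    Finset.card ⟨Finset.univ, by simp⟩
  obtain ⟨⟨z, hz⟩, hCcl⟩ := (Finset.mem_filter.1 hC).2
  -- an out-neighbour of z
  have hout : ∃ y, D.arc z y := by
    by_contra hno
    push Not at hno
    have h1 := hc.ce z
    have h2 : N1 D z = ∅ := by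
      rw [Finset.eq_empty_iff_forall_notMem]
      intro y hy
      exact hno y (mem_N1.1 hy)
    have h3 : W w (∅ : Finset V) = 0 := by simp [W]
    have h4 := W_nonneg hc.nonneg (N2 D z)
    unfold Fw at h1
    rw [h2, h3] at h1
    linarith
  obtain ⟨y, hy⟩ := hout
  -- an in-neighbour of z in C
  have hin : ∃ q ∈ C, D.arc q z := by
    by_contra hno
    push Not at hno
    have h1 : C.erase z ∈ Finset.univ.filter fun C : Finset V =>
        C.Nonempty ∧ ∀ u v, u ∈ C → D.arc u v → v ∈ C := by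
      refine Finset.mem_filter.2 ⟨Finset.mem_univ _, ⟨y, Finset.mem_erase.2
        ⟨(ne_of_arc hy).symm, hCcl z y hz hy⟩⟩, ?_⟩
      intro u v hu huv
      obtain ⟨_, hu2⟩ := Finset.mem_erase.1 hu
      refine Finset.mem_erase.2 ⟨?_, hCcl u v hu2 huv⟩
      rintro rfl
      exact hno u hu2 huv
    have h2 := hCmin _ h1
    have h3 := Finset.card_erase_lt_of_mem hz
    omega
  obtain ⟨q, hq, hqz⟩ := hin
  have hzE : z ∈ er D X z := mem_er.2 fun a ha => h.hX a z ha
  have h1 : er D X z ∩ C ∈ Finset.univ.filter fun C : Finset V =>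
      C.Nonempty ∧ ∀ u v, u ∈ C → D.arc u v → v ∈ C := by
    refine Finset.mem_filter.2 ⟨Finset.mem_univ _, ⟨z, Finset.mem_inter.2 ⟨hzE, hz⟩⟩, ?_⟩
    intro u v hu huv
    obtain ⟨hu1, hu2⟩ := Finset.mem_inter.1 hu
    exact Finset.mem_inter.2 ⟨hcl z u v hu1 huv, hCcl u v hu2 huv⟩
  have h2 : er D X z ∩ C = C :=
    Finset.eq_of_subset_of_card_le Finset.inter_subset_right (hCmin _ h1)
  have h3 : q ∈ er D X z := by
    rw [← h2] at hq
    exact (Finset.mem_inter.1 hq).1
  exact h.compat z q (ne_of_arc hqz).symm (er_sub (Or.inl rfl) h3) (h.hY q z (Or.inr hqz))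

/-- There is no arc-minimal counterexample. -/
theorem no_crit [Nonempty V] {D : OGraph V} {w : V → ℝ} (hc : Crit D w) : False := by
  classical
  obtain ⟨X, Y, h⟩ := exists_minPair D w
  have h1 := h.lemmaS hc.pos
  have h2 := h.min _ _ h.pair.shift
  obtain ⟨z, hz⟩ := h.pair.exists_bd hc
  have h3 : Cs D w 1 (fun z => cl D (er D X z)) < Cs D w 1 (er D X) := by
    unfold Cs
    refine Finset.sum_lt_sum (fun a _ => mul_le_mul_of_nonneg_left ?_ (hc.nonneg a))
      ⟨z, Finset.mem_univ _, mul_lt_mul_of_pos_left ?_ (hc.pos z)⟩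
    · have := cc_le hc (er D X a)
      unfold cc at this
      unfold cs
      linarith
    · have := cc_lt hc (er D X z) hz
      unfold cc at this
      unfold cs
      linarith
  have h4 : Cs D w 1 (fun z => cl D (er D Y z)) ≤ Cs D w 1 (er D Y) := by
    unfold Cs
    refine Finset.sum_le_sum fun a _ => mul_le_mul_of_nonneg_left ?_ (hc.nonneg a)
    have := cc_le hc (er D Y a)
    unfold cc at this
    unfold cs
    linarith
  linarith

/-- Every counterexample contains an arc-minimal one. -/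
theorem exists_crit (w : V → ℝ) (hw : ∀ v, 0 < w v) (n : ℕ) : ∀ D : OGraph V,
    ∑ a, (N1 D a).card = n → (∀ v, 0 < Fw 1 D w v) → ∃ D' : OGraph V, Crit D' w := by
  induction n using Nat.strong_induction_on with
  | _ n ih =>
    intro D hn hF
    by_cases h : ∀ D' : OGraph V, (∀ a b, D'.arc a b → D.arc a b) → (∀ v, 0 < Fw 1 D' w v) →
        ∀ a b, D.arc a b → D'.arc a b
    · exact ⟨D, hw, hF, h⟩
    · push Not at h
      obtain ⟨D', hsub, hF', a, b, hab, hab'⟩ := h
      refine ih (∑ a, (N1 D' a).card) ?_ D' rfl hF'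
      rw [← hn]
      refine Finset.sum_lt_sum (fun c _ => Finset.card_le_card fun x hx =>
        mem_N1.2 (hsub c x (mem_N1.1 hx))) ⟨a, Finset.mem_univ _, Finset.card_lt_card ?_⟩
      refine Finset.ssubset_iff_of_subset (fun x hx =>
        mem_N1.2 (hsub a x (mem_N1.1 hx))) |>.2 ⟨b, mem_N1.2 hab, fun h => hab' (mem_N1.1 h)⟩

/-- Seymour's second neighbourhood conjecture with positive weights. -/
theorem snc_pos [Nonempty V] (D : OGraph V) (w : V → ℝ) (hw : ∀ v, 0 < w v) :
    ∃ v, ∑ u ∈ N1 D v, w u ≤ ∑ u ∈ N2 D v, w u := by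
  by_contra hcon
  push Not at hcon
  obtain ⟨D', hD'⟩ := exists_crit w hw _ D rfl (fun v => by
    have := hcon v
    unfold Fw W
    linarith)
  exact no_crit hD'

/-- **Seymour's second neighbourhood conjecture.** -/
theorem snc [Nonempty V] (D : OGraph V) : ∃ v, (N1 D v).card ≤ (N2 D v).card := by
  obtain ⟨v, hv⟩ := snc_pos D (fun _ => 1) (fun _ => one_pos)
  refine ⟨v, ?_⟩
  simp only [Finset.sum_const, nsmul_eq_mul, mul_one] at hv
  exact_mod_cast hv

end Vale.Agent.P038.H668
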