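import Vale.Agent.P038.H668.SncG

/-!
# The filling lemma

Pairs of families of sets, their cost, the shift, and the comparison of the cost of a cheapest
pair with the cost of its erosion.
-/

namespace Vale.Agent.P038.H668

open Finset Vale.Agent.P038.H139

variable {V : Type*} [Fintype V]

/-- Closed in-neighbourhood relation. -/
def Nr (D : OGraph V) (a z : V) : Prop := a = z ∨ D.arc a z

open Classical in
/-- The erosion of a family. -/
noncomputable def er (D : OGraph V) (X : V → Finset V) (z : V) : Finset V :=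
  Finset.univ.filter fun u => ∀ a, Nr D a z → u ∈ X a

theorem mem_er {D : OGraph V} {X : V → Finset V} {z u : V} :
    u ∈ er D X z ↔ ∀ a, Nr D a z → u ∈ X a := by
  classical
  simp [er]

theorem mem_cl' {D : OGraph V} {S : Finset V} {z : V} :
    z ∈ cl D S ↔ ∃ y, Nr D y z ∧ y ∈ S := by
  rw [mem_cl]
  constructor
  · rintro (h | ⟨y, hy, hyz⟩)
    · exact ⟨z, Or.inl rfl, h⟩
    · exact ⟨y, Or.inr hyz, hy⟩
  · rintro ⟨y, (rfl | h), hy⟩
    · exact Or.inl hy
    · exact Or.inr ⟨y, hy, h⟩

theorem er_mono {D : OGraph V} {X Y : V → Finset V} (h : ∀ a, X a ⊆ Y a) (z : V) :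
    er D X z ⊆ er D Y z := fun u hu => mem_er.2 fun a ha => h a (mem_er.1 hu a ha)

theorem er_sub {D : OGraph V} {X : V → Finset V} {a z : V} (h : Nr D a z) : er D X z ⊆ X a :=
  fun _ hu => mem_er.1 hu a h

/-- Mass of a family. -/
noncomputable def mu (w : V → ℝ) (X : V → Finset V) : ℝ := ∑ a, w a * W w (X a)

/-- `c_s(X) = w(N⁺[X]) - s w(X)`. -/
noncomputable def cs (D : OGraph V) (w : V → ℝ) (s : ℝ) (X : Finset V) : ℝ :=
  W w (cl D X) - s * W w X

theorem cs_sub [DecidableEq V] {D : OGraph V} {w : V → ℝ} (hw : ∀ v, 0 ≤ w v) (s : ℝ)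
    (A B : Finset V) : cs D w s (A ∪ B) + cs D w s (A ∩ B) ≤ cs D w s A + cs D w s B := by
  have h1 : W w (A ∪ B) + W w (A ∩ B) = W w A + W w B := by
    unfold W; exact Finset.sum_union_inter
  have h2 : W w (cl D A ∪ cl D B) + W w (cl D A ∩ cl D B) = W w (cl D A) + W w (cl D B) := by
    unfold W; exact Finset.sum_union_inter
  have h3 : W w (cl D (A ∩ B)) ≤ W w (cl D A ∩ cl D B) :=
    W_mono hw (Finset.subset_inter (cl_mono Finset.inter_subset_left)
      (cl_mono Finset.inter_subset_right))
  have h4 : cl D (A ∪ B) = cl D A ∪ cl D B := cl_union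
  unfold cs
  rw [h4]
  have h5 : s * W w (A ∪ B) + s * W w (A ∩ B) = s * W w A + s * W w B := by
    rw [← mul_add, h1, mul_add]
  linarith

/-- The retraction inequality. -/
theorem cs_retract [DecidableEq V] {D : OGraph V} {w : V → ℝ} (hw : ∀ v, 0 ≤ w v) {s : ℝ}
    {B S : Finset V} (hBS : B ⊆ S) (hB : ∀ U, B ⊆ U → U ⊆ S → cs D w s B ≤ cs D w s U)
    {U : Finset V} (hU : U ⊆ S) : cs D w s (U ∩ B) ≤ cs D w s U := by
  have h1 := cs_sub (D := D) hw s U B
  have h2 := hB (U ∪ B) Finset.subset_union_right (Finset.union_subset hU hBS)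
  linarith

/-- Swapping the two coordinates in the mass of a difference. -/
theorem mu_diff [DecidableEq V] {w : V → ℝ} {X Y : V → Finset V} (h : ∀ a, X a ⊆ Y a) :
    mu w Y - mu w X = ∑ x, w x * W w (Finset.univ.filter fun a => x ∈ Y a ∧ x ∉ X a) := by
  have e1 : mu w Y - mu w X = ∑ a, ∑ x, if x ∈ Y a ∧ x ∉ X a then w a * w x else 0 := by
    unfold mu
    rw [← Finset.sum_sub_distrib]
    refine Finset.sum_congr rfl fun a _ => ?_
    rw [← mul_sub, ← W_sdiff (h a)]
    unfold W
    rw [Finset.mul_sum, ← Finset.sum_filter]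
    refine Finset.sum_congr ?_ fun _ _ => rfl
    ext x
    simp
  rw [e1, Finset.sum_comm]
  refine Finset.sum_congr rfl fun x _ => ?_
  unfold W
  rw [Finset.mul_sum, Finset.sum_filter]
  refine Finset.sum_congr rfl fun a _ => ?_
  split_ifs
  · ring
  · rfl

theorem mu_mono {w : V → ℝ} (hw : ∀ v, 0 ≤ w v) {X Y : V → Finset V} (h : ∀ a, X a ⊆ Y a) :
    mu w X ≤ mu w Y :=
  Finset.sum_le_sum fun a _ => mul_le_mul_of_nonneg_left (W_mono hw (h a)) (hw a)

/-- The column inequality. -/
theorem column [DecidableEq V] {D : OGraph V} {w : V → ℝ} (hw : ∀ v, 0 ≤ w v)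
    {X S B : V → Finset V} (hXB : ∀ a, X a ⊆ B a) (hBS : ∀ a, B a ⊆ S a)
    (hcol : ∀ (x : V) (Z : Finset V), (∀ a ∈ Z, x ∈ S a ∧ x ∉ X a) →
      W w Z ≤ W w ((cl D Z).filter fun z => x ∈ er D S z)) :
    mu w S - mu w B ≤ mu w (er D S) - mu w (er D B) := by
  rw [mu_diff hBS, mu_diff (er_mono hBS)]
  refine Finset.sum_le_sum fun x _ => mul_le_mul_of_nonneg_left ?_ (hw x)
  refine (hcol x (Finset.univ.filter fun a => x ∈ S a ∧ x ∉ B a) ?_).trans (W_mono hw ?_)
  · intro a ha
    obtain ⟨h1, h2⟩ := (Finset.mem_filter.1 ha).2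
    exact ⟨h1, fun h3 => h2 (hXB a h3)⟩
  · intro z hz
    obtain ⟨h1, h2⟩ := Finset.mem_filter.1 hz
    refine Finset.mem_filter.2 ⟨Finset.mem_univ _, h2, ?_⟩
    obtain ⟨a, ha, ha2⟩ := mem_cl'.1 h1
    intro h3
    exact (Finset.mem_filter.1 ha2).2.2 (er_sub ha h3)

/-- Total `c_s`-cost of a family. -/
noncomputable def Cs (D : OGraph V) (w : V → ℝ) (s : ℝ) (X : V → Finset V) : ℝ :=
  ∑ a, w a * cs D w s (X a)

theorem Cs_shift (D : OGraph V) (w : V → ℝ) (s s' : ℝ) (X : V → Finset V) :
    Cs D w s X = Cs D w s' X + (s' - s) * mu w X := by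
  unfold Cs mu cs
  rw [Finset.mul_sum, ← Finset.sum_add_distrib]
  refine Finset.sum_congr rfl fun a _ => ?_
  ring

/-- The claim (2b). -/
theorem claim [DecidableEq V] {D : OGraph V} {w : V → ℝ} (hw : ∀ v, 0 < w v)
    {X S : V → Finset V}
    (hcol : ∀ (x : V) (Z : Finset V), (∀ a ∈ Z, x ∈ S a ∧ x ∉ X a) →
      W w Z ≤ W w ((cl D Z).filter fun z => x ∈ er D S z)) (n : ℕ) :
    ∀ (s : ℝ) (B : V → Finset V), (∑ a, (S a \ B a).card = n) → (∀ a, X a ⊆ B a) →
      (∀ a, B a ⊆ S a) → (∀ a U, B a ⊆ U → U ⊆ S a → cs D w s (B a) ≤ cs D w s U) →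
      Cs D w s S - Cs D w s B ≤ Cs D w s (er D S) - Cs D w s (er D B) := by
  classical
  have hw0 : ∀ v, 0 ≤ w v := fun v => (hw v).le
  induction n using Nat.strong_induction_on with
  | _ n ih =>
    intro s B hn hXB hBS hmin
    by_cases hB : ∀ a, B a = S a
    · have : B = S := funext hB
      rw [this]
      simp
    · push Not at hB
      obtain ⟨a0, ha0⟩ := hB
      -- candidates
      let Cand : Finset (V × Finset V) := Finset.univ.filter fun p => B p.1 ⊂ p.2 ∧ p.2 ⊆ S p.1
      have hCand : ∀ p : V × Finset V, p ∈ Cand ↔ (B p.1 ⊂ p.2 ∧ p.2 ⊆ S p.1) := fun p => by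
        simp [Cand]
      let rat : V × Finset V → ℝ := fun p =>
        (W w (cl D p.2) - W w (cl D (B p.1))) / (W w p.2 - W w (B p.1))
      have hne : Cand.Nonempty :=
        ⟨(a0, S a0), (hCand _).2 ⟨Finset.ssubset_iff_subset_ne.2 ⟨hBS a0, ha0⟩,
          Finset.Subset.refl _⟩⟩
      obtain ⟨p, hp, hpmin⟩ := Finset.exists_min_image Cand rat hne
      obtain ⟨a1, W1⟩ := p
      obtain ⟨hBW, hWS⟩ := (hCand _).1 hp
      simp only at hBW hWS
      have hden : ∀ q ∈ Cand, 0 < W w q.2 - W w (B q.1) := by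
        intro q hq
        obtain ⟨h1, _⟩ := (hCand q).1 hq
        obtain ⟨x, hx, hx2⟩ := Finset.exists_of_ssubset h1
        rw [← W_sdiff h1.subset]
        unfold W
        refine Finset.sum_pos (fun v _ => hw v) ⟨x, Finset.mem_sdiff.2 ⟨hx, hx2⟩⟩
      set s' : ℝ := rat (a1, W1) with hs'
      have hs's : s ≤ s' := by
        have h1 := hmin a1 W1 hBW.subset hWS
        have h2 := hden _ hp
        rw [hs']
        show s ≤ (W w (cl D W1) - W w (cl D (B a1))) / (W w W1 - W w (B a1))
        rw [le_div_iff₀ h2]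
        unfold cs at h1
        linarith
      have heq : cs D w s' W1 = cs D w s' (B a1) := by
        have h2 := hden _ hp
        have h3 : s' * (W w W1 - W w (B a1)) = W w (cl D W1) - W w (cl D (B a1)) := by
          rw [hs']
          exact div_mul_cancel₀ _ h2.ne'
        unfold cs
        linarith
      have hmin' : ∀ a U, B a ⊆ U → U ⊆ S a → cs D w s' (B a) ≤ cs D w s' U := by
        intro a U hBU hUS
        by_cases hBU' : B a = U
        · rw [hBU']
        · have hq : (a, U) ∈ Cand := (hCand _).2 ⟨Finset.ssubset_iff_subset_ne.2 ⟨hBU, hBU'⟩, hUS⟩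
          have h1 : s' ≤ (W w (cl D U) - W w (cl D (B a))) / (W w U - W w (B a)) :=
            hpmin (a, U) hq
          rw [le_div_iff₀ (hden _ hq)] at h1
          unfold cs
          linarith
      set B' : V → Finset V := Function.update B a1 W1 with hB'
      have hB'1 : B' a1 = W1 := by rw [hB', Function.update_self]
      have hB'2 : ∀ a, a ≠ a1 → B' a = B a := fun a ha => by
        rw [hB', Function.update_of_ne ha]
      have hBB' : ∀ a, B a ⊆ B' a := by
        intro a
        by_cases ha : a = a1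
        · rw [ha, hB'1]; exact hBW.subset
        · rw [hB'2 a ha]
      have hB'S : ∀ a, B' a ⊆ S a := by
        intro a
        by_cases ha : a = a1
        · rw [ha, hB'1]; exact hWS
        · rw [hB'2 a ha]; exact hBS a
      have hcard : ∑ a, (S a \ B' a).card < n := by
        rw [← hn]
        refine Finset.sum_lt_sum (fun a _ => Finset.card_le_card
          (Finset.sdiff_subset_sdiff (Finset.Subset.refl _) (hBB' a))) ⟨a1, Finset.mem_univ _, ?_⟩
        obtain ⟨x, hx, hx2⟩ := Finset.exists_of_ssubset hBW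
        refine Finset.card_lt_card (Finset.ssubset_iff_subset_ne.2
          ⟨Finset.sdiff_subset_sdiff (Finset.Subset.refl _) (hBB' a1), ?_⟩)
        intro he
        have h1 : x ∈ S a1 \ B a1 := Finset.mem_sdiff.2 ⟨hWS hx, hx2⟩
        rw [← he, hB'1] at h1
        exact (Finset.mem_sdiff.1 h1).2 hx
      have hIH := ih _ hcard s' B' rfl (fun a => (hXB a).trans (hBB' a)) hB'S (by
        intro a U hBU hUS
        by_cases ha : a = a1
        · subst ha
          rw [hB'1] at hBU ⊢
          rw [heq]
          exact hmin' a U (hBW.subset.trans hBU) hUS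
        · rw [hB'2 a ha] at hBU ⊢
          exact hmin' a U hBU hUS)
      -- rows
      have h1 : Cs D w s' B' = Cs D w s' B := by
        unfold Cs
        refine Finset.sum_congr rfl fun a _ => ?_
        by_cases ha : a = a1
        · rw [ha, hB'1, heq]
        · rw [hB'2 a ha]
      -- eroded rows
      have h2 : Cs D w s' (er D B) ≤ Cs D w s' (er D B') := by
        unfold Cs
        refine Finset.sum_le_sum fun z _ => mul_le_mul_of_nonneg_left ?_ (hw0 z)
        by_cases hz : Nr D a1 z
        · have e : er D B z = er D B' z ∩ B a1 := by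
            ext u
            rw [Finset.mem_inter, mem_er, mem_er]
            constructor
            · intro h
              exact ⟨fun a ha => hBB' a (h a ha), h a1 hz⟩
            · rintro ⟨h3, h4⟩ a ha
              by_cases haa : a = a1
              · rw [haa]; exact h4
              · rw [← hB'2 a haa]; exact h3 a ha
          rw [e]
          exact cs_retract hw0 (hBS a1) (hmin' a1) ((er_sub hz).trans (hB'S a1))
        · have e : er D B z = er D B' z := by
            ext u
            rw [mem_er, mem_er]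
            constructor
            · intro h a ha
              exact hBB' a (h a ha)
            · intro h a ha
              have haa : a ≠ a1 := by rintro rfl; exact hz ha
              rw [← hB'2 a haa]; exact h a ha
          rw [e]
      have h3 := column hw0 hXB hBS hcol
      rw [Cs_shift D w s s' S, Cs_shift D w s s' B, Cs_shift D w s s' (er D S),
        Cs_shift D w s s' (er D B)]
      have h4 : (s' - s) * (mu w S - mu w B) ≤ (s' - s) * (mu w (er D S) - mu w (er D B)) :=
        mul_le_mul_of_nonneg_left h3 (by linarith)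
      nlinarith

end Vale.Agent.P038.H668
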